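import Vale.Agent.P067.Alld.H.Size
import Vale.Agent.P067.Sparse.Main

/-!
P067, module H: the answer to Q1 from the module statements.
-/

namespace Vale.Agent.P067.Alld

open Finset

section Skeleton

variable {V : Type} [Fintype V] [DecidableEq V] {T : Finset (Finset V)} {N d D : ℕ}

omit [Fintype V] in
lemma mem_face {k : ℕ} {σ : Finset V} :
    σ ∈ face T k ↔ ∃ t ∈ T, σ ⊆ t ∧ σ.card = k := by
  simp [face, mem_powersetCard]

lemma isPure_face (hT : IsPure N T) (hd : d ≤ N) : IsPure d (face T (d + 1)) := by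
  obtain ⟨⟨t, ht⟩, hc, hv⟩ := hT
  refine ⟨?_, fun σ hσ => ?_, fun v => ?_⟩
  · obtain ⟨s, hs, hsc⟩ := exists_subset_card_eq (s := t) (n := d + 1) (by rw [hc t ht]; omega)
    exact ⟨s, mem_face.2 ⟨t, ht, hs, hsc⟩⟩
  · exact (mem_face.1 hσ).choose_spec.2.2
  · obtain ⟨t, ht, hvt⟩ := hv v
    obtain ⟨s, h1, h2, h3⟩ := exists_subsuperset_card_eq (singleton_subset_iff.2 hvt)
      (n := d + 1) (by simp) (by rw [hc t ht]; omega)
    exact ⟨s, mem_face.2 ⟨t, ht, h2, h3⟩, singleton_subset_iff.1 h1⟩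

lemma degreeLE_face (hT : IsPure N T) (hD : DegreeLE D T) :
    DegreeLE (D * (N + 1).choose (d + 1)) (face T (d + 1)) := by
  intro v
  refine le_trans (card_le_card (t := (T.filter fun t => v ∈ t).biUnion
    fun t => t.powersetCard (d + 1)) fun σ hσ => ?_) (card_biUnion_le.trans ?_)
  · obtain ⟨hσ, hv⟩ := mem_filter.1 hσ
    obtain ⟨t, ht, hs, hc⟩ := mem_face.1 hσ
    exact mem_biUnion.2 ⟨t, mem_filter.2 ⟨ht, hs hv⟩, mem_powersetCard.2 ⟨hs, hc⟩⟩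
  · refine (sum_le_card_nsmul _ _ ((N + 1).choose (d + 1)) fun t ht => ?_).trans ?_
    · rw [card_powersetCard, hT.2.1 t (mem_filter.1 ht).1]
    · rw [smul_eq_mul]
      exact Nat.mul_le_mul_right _ (hD v)

end Skeleton

/-- The assembly: the modules give the answer. -/
theorem main_of_modules (hglobal : CosetGlobalStmt) (hrank : RankTwoStmt)
    (hlink : LinkExpandsStmt) (hvanish : VanishStmt) : MainStmt := by
  intro d hd
  obtain ⟨n₁, hn₁⟩ := hlink (d + 1)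
  obtain ⟨n₂, hn₂⟩ := hvanish d
  obtain ⟨n, hn₁', hn₂', hdn, h4⟩ : ∃ n, n₁ ≤ n ∧ n₂ ≤ n ∧ d + 2 ≤ n ∧ 4 ≤ n :=
    ⟨n₁ + n₂ + d + 4, by omega, by omega, by omega, by omega⟩
  obtain ⟨β, hβ, p₁, hp₁⟩ := hn₁ n hn₁'
  obtain ⟨p₂, hp₂⟩ := hn₂ n hn₂'
  obtain ⟨lam, hlam, hlam'⟩ := hglobal d n β hd hdn hβ
  obtain ⟨p₃, hp₃⟩ := hrank n h4 lam hlam
  obtain ⟨p, hp, hpp⟩ := Nat.exists_infinite_primes (p₁ + p₂ + p₃)
  have := Fact.mk hpp
  obtain ⟨D, hD, hgrow⟩ := sizeStmt n h4 p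
  obtain ⟨ε, hε, hexp⟩ := hlam' D
  refine ⟨D * (n - 1 + 1).choose (d + 1), ε, hε, fun N => ?_⟩
  obtain ⟨m, hm, hN⟩ := hgrow N
  obtain ⟨hgen, hrk⟩ := hp₃ p (by omega) m hm
  have hX : IsCoboundaryExpander d ε (face (ktops p n m) (d + 1)) :=
    hexp (Gm p n m) (hyp (ZMod p) n (Rm p m) (tm p m)) (hD m).2 hgen hrk
      (fun s k hs h1 h2 => hp₁ p (by omega) m hm s k hs h1 (by omega))
      (fun k h1 h2 => hp₂ p (by omega) m hm k h1 h2)
  have hpure : IsPure d (face (ktops p n m) (d + 1)) := isPure_face (hD m).1 (by omega)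
  exact ⟨KV p n m, inferInstance, inferInstance, _, hpure, degreeLE_face (hD m).1 (hD m).2, hN,
    fun S hS => Sparse.eq_empty_or_univ_of_expander hpure hd hε hX S hS, hX⟩

end Vale.Agent.P067.Alld
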