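import Vale.Agent.P067.Alld.Stmt
import Vale.Agent.P067.Alld.A.Roots

/-!
P067, module H: `K_m` is pure, of degree bounded independently of `m`, and its number of vertices
grows with `m`.
-/

namespace Vale.Agent.P067.Alld

open Finset

section Coset

variable {G : Type} [Group G] {n : ℕ} (H : Fin n → Subgroup G)

lemma pt_injective (g : G) : Function.Injective (pt H g) := fun _ _ h => congrArg Sigma.fst h

lemma mem_tops [Finite G] [DecidableEq (Vert H)] {t : Finset (Vert H)} :
    t ∈ tops H ↔ ∃ g, univ.image (pt H g) = t := by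
  simp only [tops, Set.Finite.mem_toFinset, Set.mem_range]
  refine exists_congr fun g => ?_
  constructor <;> (intro h; rw [← h]; ext v; simp only [mem_image])

lemma isPure_tops [Finite G] [Fintype (Vert H)] [DecidableEq (Vert H)] (hn : 1 ≤ n) :
    IsPure (n - 1) (tops H) := by
  refine ⟨⟨_, (mem_tops H).2 ⟨1, rfl⟩⟩, fun t ht => ?_, fun v => ?_⟩
  · obtain ⟨g, rfl⟩ := (mem_tops H).1 ht
    rw [card_image_of_injective _ (pt_injective H g), card_univ, Fintype.card_fin]
    omega
  · obtain ⟨l, q⟩ := v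
    induction q using QuotientGroup.induction_on with
    | H g => exact ⟨_, (mem_tops H).2 ⟨g, rfl⟩, mem_image.2 ⟨l, mem_univ _, rfl⟩⟩

lemma degreeLE_tops [Finite G] [Fintype (Vert H)] [DecidableEq (Vert H)] {D : ℕ}
    (hD : ∀ l, Nat.card (H l) ≤ D) : DegreeLE D (tops H) := by
  rintro ⟨l, q⟩
  induction q using QuotientGroup.induction_on with
  | H g =>
    have := Fintype.ofFinite (H l)
    refine le_trans (card_le_card (t := univ.image fun h : H l => univ.image (pt H (g * h)))
      fun t ht => ?_) (card_image_le.trans ((card_univ.trans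
        (Nat.card_eq_fintype_card (α := H l)).symm).le.trans (hD l)))
    obtain ⟨ht, hv⟩ := mem_filter.1 ht
    obtain ⟨b, rfl⟩ := (mem_tops H).1 ht
    obtain ⟨l', -, hl'⟩ := mem_image.1 hv
    obtain rfl : l' = l := congrArg Sigma.fst hl'
    have hm : (QuotientGroup.mk b : G ⧸ H l') = QuotientGroup.mk g :=
      eq_of_heq (Sigma.mk.inj hl').2
    exact mem_image.2 ⟨⟨g⁻¹ * b, QuotientGroup.eq.1 hm.symm⟩, mem_univ _,
      by rw [mul_inv_cancel_left]⟩

end Coset

variable (p n : ℕ) [Fact p.Prime]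

lemma card_hyp_le (m : ℕ) (l : Fin n) :
    Nat.card (hyp (ZMod p) n (Rm p m) (tm p m) l) ≤
      Nat.card (Matrix (Fin n) (Fin n) (ZMod p)) := by
  have h : ∀ x : hyp (ZMod p) n (Rm p m) (tm p m) l, ∃ c : Matrix (Fin n) (Fin n) (ZMod p),
      x.1.1.1 = patMat (Rm p m) (tm p m) c := fun x => by
    obtain ⟨c, -, hc⟩ := mem_loc_iff.1 (Subgroup.mem_subgroupOf.1 x.2)
    exact ⟨c, hc⟩
  choose φ hφ using h
  refine Nat.card_le_card_of_injective φ fun x y hxy => ?_
  exact Subtype.ext (Subtype.ext (Subtype.ext (by rw [hφ x, hφ y, hxy])))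

lemma tm_pow_injOn (m : ℕ) : Set.InjOn (fun e : ℕ => tm p m ^ e) (Set.Iio m) := by
  intro e he e' he' h
  simp only [tm, ← AdjoinRoot.mk_X, ← map_pow, AdjoinRoot.mk_eq_mk, Polynomial.X_pow_dvd_iff] at h
  by_contra hne
  have := h e he
  rw [Polynomial.coeff_sub, Polynomial.coeff_X_pow, Polynomial.coeff_X_pow, if_pos rfl,
    if_neg hne, sub_zero] at this
  exact one_ne_zero this

lemma le_card_Gm (hn : 3 ≤ n) (m : ℕ) : m - 1 ≤ Nat.card (Gm p n m) := by
  obtain ⟨a, b, hab⟩ : ∃ a b : Fin n, a ≠ b :=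
    ⟨⟨0, by omega⟩, ⟨1, by omega⟩, Fin.ne_of_val_ne (by simp)⟩
  let f : Fin (m - 1) → Gm p n m := fun e =>
    ⟨elem hab (algebraMap (ZMod p) (Rm p m) 1 * tm p m ^ ((e : ℕ) + 1)),
      elem_mem_Gam hn hab _ (Or.inr (by omega)) 1⟩
  have hf : Function.Injective f := fun e e' h => by
    have h' := congrFun (congrFun (congrArg (fun x : Gm p n m => x.1.1) h) a) b
    simp only [f, elem_coe, Matrix.add_apply, Matrix.single_apply_same, map_one, one_mul,
      Matrix.one_apply_ne hab, zero_add] at h'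
    have := e.isLt; have := e'.isLt
    have h2 := tm_pow_injOn p m (show (e : ℕ) + 1 ∈ Set.Iio m by simp; omega)
      (show (e' : ℕ) + 1 ∈ Set.Iio m by simp; omega) h'
    exact Fin.ext (by omega)
  simpa using Nat.card_le_card_of_injective f hf

theorem sizeStmt : SizeStmt := by
  intro n hn p _
  refine ⟨Nat.card (Matrix (Fin n) (Fin n) (ZMod p)), fun m =>
    ⟨isPure_tops _ (by omega), degreeLE_tops _ (card_hyp_le p n m)⟩, fun N => ?_⟩
  set D := Nat.card (Matrix (Fin n) (Fin n) (ZMod p))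
  refine ⟨N * D + 2, by omega, ?_⟩
  have hG : N * D + 1 ≤ Nat.card (Gm p n (N * D + 2)) :=
    le_trans (by omega) (le_card_Gm p n (by omega) (N * D + 2))
  let l : Fin n := ⟨0, by omega⟩
  set K := hyp (ZMod p) n (Rm p (N * D + 2)) (tm p (N * D + 2)) l with hK
  have h1 : N * D + 1 ≤ Nat.card (Gm p n (N * D + 2) ⧸ K) * D := by
    refine hG.trans ?_
    rw [Subgroup.card_eq_card_quotient_mul_card_subgroup K]
    exact Nat.mul_le_mul_left _ (card_hyp_le p n _ l)
  have h2 : N ≤ Nat.card (Gm p n (N * D + 2) ⧸ K) := by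
    by_contra h
    have := Nat.mul_le_mul_right D (le_of_lt (not_le.1 h))
    omega
  refine h2.trans ?_
  rw [← Nat.card_eq_fintype_card]
  exact Nat.card_le_card_of_injective
    (fun q => (⟨l, q⟩ : KV p n (N * D + 2))) fun q q' h => eq_of_heq (Sigma.mk.inj h).2

end Vale.Agent.P067.Alld
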